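import Vale.Agent.P235.ST.H548.Grid
import Vale.Agent.P235.R2.RED.Bags

/-! P235, (ST) O(1) (helper548): the integral core with a constant, from part B. -/

set_option autoImplicit false
set_option linter.all false

namespace Vale.Agent.P235.STO.H548

open SimpleGraph Vale.Agent.P235.Red

/-- the integral core with a constant (945's literal) -/
def Core1 (K : ℝ) : Prop :=
  ∀ (V : Type) [Finite V] (h : V → ℕ) (B : ℕ → Set V) (N : ℕ), (bagGraph B N).Connected →
    (∀ v, ∃ i ≤ N, v ∈ B i) →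
    (∀ v i j k, i ≤ j → j ≤ k → k ≤ N → v ∈ B i → v ∈ B k → v ∈ B j) →
    ∃ (Ω : Type) (_ : Fintype Ω) (p : Ω → ℝ) (X : Ω → V → ℝ), (∀ ω, 0 ≤ p ω) ∧
      (∀ i ≤ N, ∀ x ∈ B i, ∀ y ∈ B i, ∑ ω, p ω * |X ω x - X ω y| ≤ (nd (h x) (h y) : ℝ)) ∧
      ∀ x y, (dN h B N x y : ℝ) ≤ K * ∑ ω, p ω * |X ω x - X ω y|

/-- part B (literal of helper317) -/
def PB : Prop :=
  ∀ (V : Type) [Fintype V] (W : LWorld V), ∃ (Ω : Type) (_ : Fintype Ω) (_ : Nonempty Ω)
    (w : Ω → V → ℝ),
    (∀ x y, W.G.Adj x y → ∑ o, |w o x - w o y| ≤ Fintype.card Ω) ∧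
    ∀ x ∈ W.N, ∀ y ∈ W.N, 2 ^ 92 ≤ W.d x y →
      Fintype.card Ω * (1 / 2 ^ 190 * W.d x y) ≤ ∑ o, |w o x - w o y|

section pot

variable {V : Type} (h H : V → ℕ) (B : ℕ → Set V) (N M : ℕ) (x : V)

/-- candidates for the distance from `x` to the point at height `a` of column `k` -/
def cand (k a : ℕ) : Set ℕ :=
  {n | n = a + H x ∨ ∃ z ∈ B k, n = M * dN h B N x z + nd a (H z)}

/-- the potential -/
noncomputable def pot (k a : ℕ) : ℕ := sInf (cand h H B N M x k a)

variable {h H B N M x}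

theorem pot_mem (k a : ℕ) : pot h H B N M x k a ∈ cand h H B N M x k a :=
  Nat.sInf_mem ⟨a + H x, Or.inl rfl⟩

theorem pot_le {k a n : ℕ} (hn : n ∈ cand h H B N M x k a) : pot h H B N M x k a ≤ n :=
  Nat.sInf_le hn

theorem pot_lip (k a b : ℕ) : pot h H B N M x k a ≤ pot h H B N M x k b + nd a b := by
  rcases pot_mem (h := h) (H := H) (B := B) (N := N) (M := M) (x := x) k b with h1 | ⟨z, hz, h1⟩
  · rw [h1]
    refine (pot_le (Or.inl rfl)).trans ?_
    unfold nd
    omega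
  · rw [h1]
    refine (pot_le (Or.inr ⟨z, hz, rfl⟩)).trans ?_
    unfold nd
    omega

structure Good (h H : V → ℕ) (B : ℕ → Set V) (N M : ℕ) (x : V) : Prop where
  hc : (bagGraph B N).Connected
  sc : ∀ y z, nd (H y) (H z) = M * nd (h y) (h z)
  lo : ∀ z, M * dN h B N x z ≤ H x

theorem pot_bag (hg : Good h H B N M x) {j : ℕ} (hj : j ≤ N) {z : V} (hz : z ∈ B j) :
    pot h H B N M x j (H z) = M * dN h B N x z := by
  apply le_antisymm
  · refine (pot_le (Or.inr ⟨z, hz, rfl⟩)).trans ?_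
    unfold nd
    omega
  · rcases pot_mem (h := h) (H := H) (B := B) (N := N) (M := M) (x := x) j (H z) with
      h1 | ⟨z', hz', h1⟩
    · rw [h1]
      have := hg.lo z
      omega
    · rw [h1, hg.sc, ← Nat.mul_add]
      refine Nat.mul_le_mul_left _ ?_
      have h2 := dN_lip (h := h) hg.hc x hj hz' hz
      rwa [nd_comm (h z) (h z')]

theorem pot_zero (hg : Good h H B N M x) (j : ℕ) : pot h H B N M x j 0 = H x := by
  apply le_antisymm
  · refine (pot_le (Or.inl rfl)).trans ?_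
    omega
  · rcases pot_mem (h := h) (H := H) (B := B) (N := N) (M := M) (x := x) j 0 with
      h1 | ⟨z', hz', h1⟩
    · rw [h1]
      omega
    · rw [h1]
      obtain ⟨w, hw⟩ := dN_attained (h := h) hg.hc x z'
      have h2 := walk_ge (h := h) w
      rw [hw] at h2
      have h3 := hg.sc x z'
      have h4 : M * nd (h x) (h z') ≤ M * dN h B N x z' := Nat.mul_le_mul_left _ h2
      rw [← h3] at h4
      unfold nd at *
      omega

/-- the common heights -/
def JJ (H : V → ℕ) (B : ℕ → Set V) (i : ℕ) : Set ℕ :=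
  {a | a = 0 ∨ ∃ z, z ∈ B i ∧ z ∈ B (i + 1) ∧ H z = a}

theorem pot_col (hg : Good h H B N M x) (a : ℕ) : ∀ {k : ℕ}, k ≤ N →
    pot h H B N M x k a = pot h H B N M x (col (JJ H B) k a) a := by
  intro k
  induction k with
  | zero => intro _; rfl
  | succ k ih =>
    intro hk
    by_cases ha : a ∈ JJ H B k
    · rw [col_succ_mem ha, ← ih (by omega)]
      rcases ha with rfl | ⟨z, h1, h2, rfl⟩
      · rw [pot_zero hg, pot_zero hg]
      · rw [pot_bag hg hk h2, pot_bag hg (by omega) h1]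
    · rw [col_succ_not ha]

end pot

theorem nd_mul (M a b : ℕ) : nd (M * a) (M * b) = M * nd a b := by
  unfold nd
  rw [← Nat.mul_sub, ← Nat.mul_sub, ← Nat.mul_add]

/-- a walk -/
theorem walk_pot {V : Type} {h H : V → ℕ} {B : ℕ → Set V} {N M T : ℕ} {x : V}
    (hg : Good h H B N M x) {a b : GV (JJ H B) N T} (q : (GG (JJ H B) N T).Walk a b) :
    pot h H B N M x b.1.1 b.1.2 ≤ pot h H B N M x a.1.1 a.1.2 + q.length := by
  induction q with
  | nil => simp
  | @cons a c b hac p ih =>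
    have h1 := hac.1
    obtain ⟨k, hk, h2, h3⟩ := hac.2
    have e1 := pot_col hg a.1.2 hk
    have e2 := pot_col hg c.1.2 hk
    rw [h2] at e1
    rw [h3] at e2
    have h4 := pot_lip (h := h) (H := H) (B := B) (N := N) (M := M) (x := x) k c.1.2 a.1.2
    rw [e1, e2] at h4
    have h5 : nd c.1.2 a.1.2 ≤ 1 := by
      unfold nd
      omega
    rw [Walk.length_cons]
    omega

theorem sum_walk {V : Type} {G : SimpleGraph V} {Ω : Type} [Fintype Ω] (w : Ω → V → ℝ) (K : ℝ)
    (hw : ∀ x y, G.Adj x y → ∑ o, |w o x - w o y| ≤ K) {x y : V} (q : G.Walk x y) :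
    ∑ o, |w o x - w o y| ≤ q.length * K := by
  induction q with
  | nil => simp
  | @cons a b c hab p ih =>
    have h1 := hw a b hab
    have h2 : ∑ o, |w o a - w o c| ≤ ∑ o, |w o a - w o b| + ∑ o, |w o b - w o c| := by
      rw [← Finset.sum_add_distrib]
      exact Finset.sum_le_sum fun o _ => abs_sub_le _ _ _
    rw [Walk.length_cons]
    push_cast
    linarith

theorem scale_eq (A M c d : ℝ) (hA : A ≠ 0) (hM : M ≠ 0) (hc : c ≠ 0) :
    d = A * (1 / (M * c) * (c * (1 / A * (M * d)))) := by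
  field_simp

theorem core1 (hPB : PB) : Core1 (2 ^ 190) := by
  classical
  intro V _ h B N hc every convex
  have hV : Nonempty V := hc.nonempty
  obtain ⟨D, hD⟩ : ∃ D : ℕ, ∀ x y, dN h B N x y ≤ D := by
    obtain ⟨D, hD⟩ := (Set.finite_range fun q : V × V => dN h B N q.1 q.2).bddAbove
    exact ⟨D, fun x y => hD ⟨(x, y), rfl⟩⟩
  obtain ⟨M, hM⟩ : ∃ M : ℕ, M = 2 ^ 92 := ⟨_, rfl⟩
  have hM0 : 0 < M := by rw [hM]; positivity
  have hMR : (M : ℝ) = 2 ^ 92 := by rw [hM]; norm_num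
  set H : V → ℕ := fun x => M * (h x + D) with hH
  obtain ⟨T, hT⟩ : ∃ T : ℕ, ∀ x, H x ≤ T := by
    obtain ⟨E, hE⟩ := (Set.finite_range H).bddAbove
    exact ⟨E, fun x => hE ⟨x, rfl⟩⟩
  have hsc : ∀ y z, nd (H y) (H z) = M * nd (h y) (h z) := by
    intro y z
    have h1 : nd (h y + D) (h z + D) = nd (h y) (h z) := by unfold nd; omega
    rw [← h1]
    show nd (M * (h y + D)) (M * (h z + D)) = M * nd (h y + D) (h z + D)
    exact nd_mul _ _ _
  have hg : ∀ x, Good h H B N M x := fun x =>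
    ⟨hc, hsc, fun z => Nat.mul_le_mul_left _ ((hD x z).trans (Nat.le_add_left _ _))⟩
  choose ι hι hmem using every
  set φ : V → GV (JJ H B) N T := fun x => rep (JJ H B) (ι x) (H x) (hι x) (hT x) with hφ
  have hcol : ∀ x i, i ≤ N → x ∈ B i → col (JJ H B) i (H x) = (φ x).1.1 := by
    intro x i hi hx
    show col (JJ H B) i (H x) = col (JJ H B) (ι x) (H x)
    rcases le_total (ι x) i with h1 | h1
    · refine col_const h1 fun t h2 h3 => Or.inr ⟨x, ?_, ?_, rfl⟩
      · exact convex x (ι x) t i h2 h3.le hi (hmem x) hx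
      · exact convex x (ι x) (t + 1) i (by omega) h3 hi (hmem x) hx
    · refine (col_const h1 fun t h2 h3 => Or.inr ⟨x, ?_, ?_, rfl⟩).symm
      · exact convex x i t (ι x) h2 h3.le (hι x) hx (hmem x)
      · exact convex x i (t + 1) (ι x) (by omega) h3 (hι x) hx (hmem x)
  have hfin : Fintype (GV (JJ H B) N T) := Fintype.ofFinite _
  obtain ⟨Ω, _, _, w, hw1, hw2⟩ := hPB (GV (JJ H B) N T) (world (JJ H B) N T fun i => Or.inl rfl)
  have hcard : (0 : ℝ) < Fintype.card Ω := by exact_mod_cast Fintype.card_pos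
  -- upper bound
  have hup0 : ∀ i ≤ N, ∀ x ∈ B i, ∀ y ∈ B i, H x ≤ H y →
      ∑ o, |w o (φ x) - w o (φ y)| ≤ nd (H x) (H y) * (Fintype.card Ω : ℝ) := by
    intro i hi x hx y hy hxy
    obtain ⟨q, hq, -⟩ := line_walk (J := JJ H B) (T := T) hi (φ x) (φ y) (hcol x i hi hx)
      (hcol y i hi hy) hxy
    have h1 : ∑ o, |w o (φ x) - w o (φ y)| ≤ (q.length : ℝ) * (Fintype.card Ω : ℝ) :=
      sum_walk (G := GG (JJ H B) N T) w _ hw1 q
    have h2 : q.length = nd (H x) (H y) := by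
      rw [hq]
      show H y - H x = nd (H x) (H y)
      unfold nd
      omega
    rwa [h2] at h1
  have hup : ∀ i ≤ N, ∀ x ∈ B i, ∀ y ∈ B i,
      ∑ o, |w o (φ x) - w o (φ y)| ≤ nd (H x) (H y) * (Fintype.card Ω : ℝ) := by
    intro i hi x hx y hy
    rcases le_total (H x) (H y) with h1 | h1
    · exact hup0 i hi x hx y hy h1
    · have h2 := hup0 i hi y hy x hx h1
      rw [nd_comm (H x) (H y)]
      refine le_trans (le_of_eq ?_) h2
      exact Finset.sum_congr rfl fun o _ => abs_sub_comm _ _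
  -- lower bound
  have hlow : ∀ x y, M * dN h B N x y ≤ (GG (JJ H B) N T).dist (φ x) (φ y) := by
    intro x y
    have hconn := (world (JJ H B) N T fun i => Or.inl rfl).conn
    obtain ⟨q, hq⟩ := hconn.exists_walk_length_eq_dist (φ x) (φ y)
    have h1 := walk_pot (hg x) q
    have e1 : pot h H B N M x (φ x).1.1 (φ x).1.2 = 0 := by
      rw [← hcol x (ι x) (hι x) (hmem x)]
      have h2 := pot_col (hg x) (H x) (hι x)
      show pot h H B N M x (col (JJ H B) (ι x) (H x)) (H x) = 0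
      rw [← h2, pot_bag (hg x) (hι x) (hmem x), dN_self, Nat.mul_zero]
    have e2 : pot h H B N M x (φ y).1.1 (φ y).1.2 = M * dN h B N x y := by
      rw [← hcol y (ι y) (hι y) (hmem y)]
      have h2 := pot_col (hg x) (H y) (hι y)
      show pot h H B N M x (col (JJ H B) (ι y) (H y)) (H y) = M * dN h B N x y
      rw [← h2, pot_bag (hg x) (hι y) (hmem y)]
    rw [e1, e2, Nat.zero_add] at h1
    exact h1.trans (le_of_eq hq)
  have hMpos : (0 : ℝ) < M := by exact_mod_cast hM0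
  refine ⟨Ω, inferInstance, fun _ => 1 / (M * Fintype.card Ω), fun o x => w o (φ x),
    fun _ => by positivity, ?_, ?_⟩
  · intro i hi x hx y hy
    have h1 := hup i hi x hx y hy
    rw [← Finset.mul_sum]
    rw [hsc] at h1
    push_cast at h1
    rw [one_div, inv_mul_le_iff₀ (by positivity)]
    linarith
  · intro x y
    rw [← Finset.mul_sum]
    have hsum : 0 ≤ ∑ o, |w o (φ x) - w o (φ y)| := Finset.sum_nonneg fun _ _ => abs_nonneg _
    rcases Nat.eq_zero_or_pos (dN h B N x y) with h0 | h0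
    · rw [h0, Nat.cast_zero]
      exact mul_nonneg (pow_nonneg two_pos.le _) (mul_nonneg (one_div_nonneg.2
        (mul_nonneg hMpos.le hcard.le)) hsum)
    · have h1 := hlow x y
      have h2 : ((M * dN h B N x y : ℕ) : ℝ) ≤ ((GG (JJ H B) N T).dist (φ x) (φ y) : ℝ) := by
        exact_mod_cast h1
      push_cast at h2
      have h3 : (1 : ℝ) ≤ dN h B N x y := by exact_mod_cast h0
      have h4 : (2 : ℝ) ^ 92 ≤ ((GG (JJ H B) N T).dist (φ x) (φ y) : ℝ) := by
        rw [← hMR]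
        nlinarith
      have h5 := hw2 (φ x) trivial (φ y) trivial h4
      have h6 : (Fintype.card Ω : ℝ) * (1 / 2 ^ 190 * (M * dN h B N x y)) ≤
          ∑ o, |w o (φ x) - w o (φ y)| := by
        refine le_trans ?_ h5
        refine mul_le_mul_of_nonneg_left ?_ hcard.le
        exact mul_le_mul_of_nonneg_left h2 (by positivity)
      have h7 : (dN h B N x y : ℝ) = 2 ^ 190 * (1 / (M * Fintype.card Ω) *
          ((Fintype.card Ω : ℝ) * (1 / 2 ^ 190 * (M * dN h B N x y)))) :=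
        scale_eq _ _ _ _ (pow_pos two_pos _).ne' hMpos.ne' hcard.ne'
      rw [h7]
      refine mul_le_mul_of_nonneg_left ?_ (pow_nonneg two_pos.le _)
      exact mul_le_mul_of_nonneg_left h6 (one_div_nonneg.2 (mul_nonneg hMpos.le hcard.le))

end Vale.Agent.P235.STO.H548
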