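import Vale.Agent.P235.ST.H548.Core
import Vale.Agent.P235.R2.RED.Bags2
import Vale.Agent.P235.R2.H673.SweepOf
import Vale.Agent.P235.R2.H271.RowC
import Vale.Agent.P235.R2.H341.F
import Vale.Agent.P235.R2.H611.W1Main
import Vale.Agent.P235.R2.H26.RowW
import Vale.Agent.P235.LL.H565.StFinal

/-! P235, (ST) O(1) (helper548): from part B to all planar graphs. -/

set_option autoImplicit false
set_option linter.all false

namespace Vale.Agent.P235.STO.H548

open SimpleGraph Vale.Agent.P235 Vale.Agent.P235.Red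

/-- the bag theorem with a constant -/
theorem bag1 {K : ℝ} (hK : 0 ≤ K) (hC : Core1 K) {V : Type} [Finite V] {G : SimpleGraph V}
    {ℓ : Sym2 V → ℝ} {h : V → ℝ} {N : ℕ} {B : ℕ → Set V} (hc : G.Connected)
    (hℓ : ∀ e ∈ G.edgeSet, 0 < ℓ e) (hb : Bags G ℓ h N B) :
    EmbedsL1 (pathDist G ℓ) (2 * K) := by
  classical
  obtain ⟨δ, hδ, hδℓ⟩ := exists_min_len hℓ
  have hVne : Nonempty V := hc.nonempty
  obtain ⟨m, hm⟩ : ∃ m : ℝ, ∀ x, m ≤ h x := by
    obtain ⟨m, hm⟩ := (Set.finite_range h).bddBelow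
    exact ⟨m, fun x => hm ⟨x, rfl⟩⟩
  set M : ℝ := 5 / δ with hM
  have hMpos : 0 < M := by positivity
  have hMδ : M * δ = 5 := by rw [hM]; field_simp
  set h0 : V → ℕ := fun x => ⌊M * (h x - m)⌋₊ with hh0
  have hround : ∀ i ≤ N, ∀ x ∈ B i, ∀ y ∈ B i,
      4 / 5 * M * pathDist G ℓ x y ≤ (nd (h0 x) (h0 y) : ℝ) ∧
        (nd (h0 x) (h0 y) : ℝ) ≤ 6 / 5 * M * pathDist G ℓ x y := by
    intro i hi x hx y hy
    by_cases hxy : x = y
    · subst hxy
      rw [pd_self hℓ]; simp [nd]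
    · have h1 := pd_ge hc hℓ hδℓ hxy
      have h2 := hb.line i hi x hx y hy
      have h3 := floor_diff (a := M * (h x - m)) (b := M * (h y - m))
        (mul_nonneg hMpos.le (by linarith [hm x])) (mul_nonneg hMpos.le (by linarith [hm y]))
      have h4 : M * (h x - m) - M * (h y - m) = M * (h x - h y) := by ring
      rw [h4, abs_mul, abs_of_pos hMpos, ← h2] at h3
      have h5 : 5 ≤ M * pathDist G ℓ x y := by
        rw [← hMδ]; exact mul_le_mul_of_nonneg_left h1 hMpos.le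
      exact ⟨by linarith [h3.1], by linarith [h3.2]⟩
  have hGle : ∀ u v, G.Adj u v → (bagGraph B N).Adj u v := fun u v huv => by
    obtain ⟨i, hi, h1, h2⟩ := hb.cover u v huv
    exact ⟨huv.ne, i, hi, h1, h2⟩
  have hbc : (bagGraph B N).Connected := hc.mono (fun u v huv => hGle u v huv)
  obtain ⟨Ω, _, p, X, hp, h1, h2⟩ := hC V h0 B N hbc hb.every hb.convex
  set ρ : V → V → ℝ := fun x y => ∑ ω, p ω * |X ω x - X ω y| with hρ
  have hρ0 : ∀ x, ρ x x = 0 := by intro x; simp [hρ]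
  have hρt : ∀ x y z, ρ x z ≤ ρ x y + ρ y z := by
    intro x y z
    rw [hρ]
    simp only
    rw [← Finset.sum_add_distrib]
    refine Finset.sum_le_sum fun ω _ => ?_
    rw [← mul_add]
    exact mul_le_mul_of_nonneg_left (abs_sub_le _ _ _) (hp ω)
  have hup : ∀ x y, ρ x y ≤ 6 / 5 * M * pathDist G ℓ x y := by
    refine pd_semi hc (by positivity) hρ0 hρt fun u v huv => ?_
    obtain ⟨i, hi, hu, hv⟩ := hb.cover u v huv
    refine (h1 i hi u hu v hv).trans ?_
    refine ((hround i hi u hu v hv).2).trans ?_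
    exact mul_le_mul_of_nonneg_left (pd_adj hℓ huv) (by positivity)
  have hwalk : ∀ x y, ∀ w : (bagGraph B N).Walk x y,
      4 / 5 * M * pathDist G ℓ x y ≤ ((w.edges.map (Red.len h0)).sum : ℝ) := by
    intro x y w
    induction w with
    | nil => rw [pd_self hℓ]; simp
    | @cons a b c hab q ih =>
      rw [SimpleGraph.Walk.edges_cons, List.map_cons, List.sum_cons, Red.len_mk]
      obtain ⟨-, i, hi, ha, hb'⟩ := hab
      have h3 := (hround i hi a ha b hb').1
      have h4 := pd_tri hc hℓ a b c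
      have h5 : 4 / 5 * M * pathDist G ℓ a c ≤
          4 / 5 * M * (pathDist G ℓ a b + pathDist G ℓ b c) :=
        mul_le_mul_of_nonneg_left h4 (by positivity)
      push_cast
      push_cast at ih
      linarith
  have hlow : ∀ x y, 4 / 5 * M * pathDist G ℓ x y ≤ K * ρ x y := by
    intro x y
    refine le_trans ?_ (h2 x y)
    obtain ⟨w, hw⟩ := dN_attained (h := h0) hbc x y
    rw [← hw]
    exact hwalk x y w
  set c : ℝ := K / (4 / 5 * M) with hcdef
  have hc0 : 0 ≤ c := div_nonneg hK (by positivity)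
  have hsum : ∀ x y, ∑ ω, c * p ω * |X ω x - X ω y| = c * ρ x y := by
    intro x y
    rw [hρ]; simp only; rw [Finset.mul_sum]
    exact Finset.sum_congr rfl fun _ _ => by ring
  refine H263.embeds_of_family (P := fun ω => c * p ω) (fun ω => mul_nonneg hc0 (hp ω)) X ?_ ?_
  · intro x y
    rw [hsum, hcdef, div_mul_eq_mul_div, le_div_iff₀ (by positivity)]
    linarith [hlow x y]
  · intro x y
    rw [hsum]
    calc c * ρ x y ≤ c * (6 / 5 * M * pathDist G ℓ x y) :=
          mul_le_mul_of_nonneg_left (hup x y) hc0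
      _ = (3 / 2) * K * pathDist G ℓ x y := by
          rw [hcdef]; field_simp; ring
      _ ≤ (2 * K) * pathDist G ℓ x y :=
          mul_le_mul_of_nonneg_right (by linarith) (pd_nonneg hℓ x y)

/-- row F with a constant -/
theorem rowF1 {K : ℝ} (hK : 0 ≤ K) (hC : Core1 K) : RowF (fun _ => K / 2) := by
  intro V _ G σ d₀ ℓ s t hc hp hs ht hℓ htight
  have pos : ∀ u v, G.Adj u v → 0 < ℓ s(u, v) := fun u v ha => hℓ _ (G.mem_edgeSet.2 ha)
  have hst : s ≠ t := by
    rintro rfl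
    have ha := d₀.adj
    have h1 := pos _ _ ha
    have h2 := pd_nonneg hℓ s d₀.fst
    have h3 := pd_nonneg hℓ s d₀.snd
    have h4 := pd_nonneg hℓ d₀.fst s
    have h5 := pd_nonneg hℓ d₀.snd s
    have h6 := pd_self hℓ s
    rcases htight _ _ ha with h | h <;> linarith
  obtain ⟨hU, hl⟩ := F0.rowF0 V G ℓ s t hc hst hℓ htight
  obtain ⟨P, hS⟩ := R2.H271.rowC V G σ d₀ (pathDist G ℓ s) s t hc hp hs ht hU
  obtain ⟨Ω, m, μ, g, hg⟩ := bag1 hK hC hc hℓ (R2.H673.bags_of_sweep hS hl pos)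
  refine ⟨Ω, m, μ, g, fun x y => ⟨(hg x y).1, (hg x y).2.trans ?_⟩⟩
  refine mul_le_mul_of_nonneg_right ?_ (pd_nonneg hℓ x y)
  linarith

/-- **the `s`-`t` case with a constant** -/
theorem stBound1 {K : ℝ} (hK : 0 ≤ K) (hC : Core1 K) (n : ℕ) :
    LL.StBound n (2 + 4 * (K / 2)) := by
  intro W _ Γ ℓ s t hc hP hℓ hst hg hn
  obtain ⟨σ, hσ⟩ := hP
  obtain ⟨k, -, hk⟩ := Tight.vertex_geodesic W1.rowW (rowF1 hK hC) W Γ σ ⟨(s, t), hst⟩ ℓ s t hc hσ
    ⟨_, Equiv.Perm.SameCycle.refl _ _, rfl⟩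
    ⟨faceNext σ ⟨(s, t), hst⟩, ⟨1, by simp⟩, by
      show (σ _).fst = t
      rw [hσ.fst]
      rfl⟩ hℓ hg
  exact hk

/-- **planar graphs** -/
theorem planar_of_core {K : ℝ} (hK : 0 ≤ K) (hC : Core1 K) :
    ∃ K' : ℝ, ∀ (V : Type) [Finite V] (G : SimpleGraph V), G.Connected →
      (∃ σ : Equiv.Perm G.Dart, PlaneMap G σ) → DistortionLE G K' :=
  LL.planar_iff.2 ⟨_, stBound1 hK hC⟩

/-- planar graphs; genus `g` and `t` apices -/
theorem near_of_core {K : ℝ} (hK : 0 ≤ K) (hC : Core1 K) : ∃ C : ℝ, 1 ≤ C ∧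
    (∀ (V : Type) [Finite V] (G : SimpleGraph V), G.Connected →
      (∃ σ : Equiv.Perm G.Dart, PlaneMap G σ) → DistortionLE G C) ∧
    ∀ (n g t : ℕ) (V : Type) [Finite V] (G : SimpleGraph V), G.Connected → NearSurf n g t V G →
      DistortionLE G (C * (1 + Real.log (g + 2) + Real.log (t + 2))) := by
  obtain ⟨B, hB, h1⟩ := LL.near_reduction
  set A : ℝ := 2 + 4 * (K / 2) with hA
  have hA1 : 1 ≤ A := by rw [hA]; linarith
  refine ⟨B * A, by nlinarith, fun V _ G hc hP => ?_, fun n g t V _ G hc hG => ?_⟩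
  · exact (h1 (Nat.card V) A hA1 (stBound1 hK hC _)).1 V G hc hP le_rfl
  · refine ((h1 n A hA1 (stBound1 hK hC _)).2 g t V G hc hG).mono ?_
    have hlg : 0 ≤ Real.log ((g : ℝ) + 2) :=
      Real.log_nonneg (by have : (0 : ℝ) ≤ g := Nat.cast_nonneg g; linarith)
    have hlt : 0 ≤ Real.log ((t : ℝ) + 2) :=
      Real.log_nonneg (by have : (0 : ℝ) ≤ t := Nat.cast_nonneg t; linarith)
    have h2 : 0 ≤ B * ((A - 1) * (Real.log ((g : ℝ) + 2) + Real.log ((t : ℝ) + 2))) :=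
      mul_nonneg (by linarith) (mul_nonneg (by linarith) (by linarith))
    nlinarith

end Vale.Agent.P235.STO.H548
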