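import Vale.Agent.P235.ST.H317.Defs

/-! P235, (ST) O(1) (helper548): the lined world of a word: columns `0, …, N`, heights `0, …, T`;
`(i, a)` and `(i + 1, a)` are the same vertex if `a ∈ J i`. -/

set_option autoImplicit false
set_option linter.all false

namespace Vale.Agent.P235.STO.H548

open SimpleGraph

open Classical in
/-- first column of the run of columns which contains column `k` at height `a` -/
noncomputable def col (J : ℕ → Set ℕ) : ℕ → ℕ → ℕ
  | 0, _ => 0
  | k + 1, a => if a ∈ J k then col J k a else k + 1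

variable {J : ℕ → Set ℕ}

theorem col_succ_mem {k a : ℕ} (h : a ∈ J k) : col J (k + 1) a = col J k a := by
  simp [col, h]

theorem col_succ_not {k a : ℕ} (h : a ∉ J k) : col J (k + 1) a = k + 1 := by
  simp [col, h]

theorem col_le (k a : ℕ) : col J k a ≤ k := by
  induction k with
  | zero => simp [col]
  | succ k ih =>
    by_cases h : a ∈ J k
    · rw [col_succ_mem h]; omega
    · rw [col_succ_not h]

theorem col_between {j a : ℕ} : ∀ {k : ℕ}, col J j a ≤ k → k ≤ j → col J k a = col J j a := by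
  induction j with
  | zero =>
    intro k _ h2
    have : k = 0 := by omega
    rw [this]
  | succ j ih =>
    intro k h1 h2
    rcases Nat.lt_or_ge j k with h3 | h3
    · have : k = j + 1 := by omega
      rw [this]
    · by_cases h : a ∈ J j
      · rw [col_succ_mem h] at h1 ⊢
        exact ih h1 h3
      · rw [col_succ_not h] at h1
        omega

theorem col_idem (k a : ℕ) : col J (col J k a) a = col J k a := col_between le_rfl (col_le k a)

theorem col_const {a i : ℕ} : ∀ {k : ℕ}, i ≤ k → (∀ t, i ≤ t → t < k → a ∈ J t) →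
    col J k a = col J i a := by
  intro k
  induction k with
  | zero =>
    intro h _
    have : i = 0 := by omega
    rw [this]
  | succ k ih =>
    intro h1 h2
    rcases Nat.lt_or_ge k i with h3 | h3
    · have : i = k + 1 := by omega
      rw [this]
    · rw [col_succ_mem (h2 k h3 (by omega))]
      exact ih h3 fun t h4 h5 => h2 t h4 (by omega)

/-- the vertices -/
def GV (J : ℕ → Set ℕ) (N T : ℕ) : Type :=
  {p : ℕ × ℕ // p.1 ≤ N ∧ p.2 ≤ T ∧ col J p.1 p.2 = p.1}

instance (N T : ℕ) : Finite (GV J N T) := by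
  refine Finite.of_injective (β := Fin (N + 1) × Fin (T + 1))
    (fun x => (⟨x.1.1, Nat.lt_succ_of_le x.2.1⟩, ⟨x.1.2, Nat.lt_succ_of_le x.2.2.1⟩)) ?_
  intro x y hxy
  simp only [Prod.mk.injEq, Fin.mk.injEq] at hxy
  exact Subtype.ext (Prod.ext hxy.1 hxy.2)

variable {N T : ℕ}

/-- the vertex at height `a` of column `k` -/
noncomputable def rep (J : ℕ → Set ℕ) {N T : ℕ} (k a : ℕ) (hk : k ≤ N) (ha : a ≤ T) : GV J N T :=
  ⟨(col J k a, a), (col_le k a).trans hk, ha, col_idem k a⟩

/-- the graph -/
def GG (J : ℕ → Set ℕ) (N T : ℕ) : SimpleGraph (GV J N T) where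
  Adj x y := (x.1.2 + 1 = y.1.2 ∨ y.1.2 + 1 = x.1.2) ∧
    ∃ k ≤ N, col J k x.1.2 = x.1.1 ∧ col J k y.1.2 = y.1.1
  symm := ⟨fun _ _ h => ⟨h.1.symm, h.2.imp fun _ h => ⟨h.1, h.2.2, h.2.1⟩⟩⟩
  loopless := ⟨fun _ h => by rcases h.1 with h | h <;> omega⟩

theorem rep_adj {k a : ℕ} (hk : k ≤ N) (ha : a + 1 ≤ T) :
    (GG J N T).Adj (rep J k a hk (by omega)) (rep J k (a + 1) hk ha) :=
  ⟨Or.inl rfl, k, hk, rfl, rfl⟩

/-- the walk up column `k` -/
theorem rep_walk {k : ℕ} (hk : k ≤ N) (a : ℕ) : ∀ (n : ℕ) (ha : a + n ≤ T),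
    ∃ q : (GG J N T).Walk (rep J k a hk (by omega)) (rep J k (a + n) hk ha), q.length = n ∧
      ∀ z ∈ q.support, col J k z.1.2 = z.1.1 := by
  intro n
  induction n with
  | zero =>
    intro ha
    refine ⟨Walk.nil, rfl, fun z hz => ?_⟩
    rw [Walk.support_nil, List.mem_singleton] at hz
    rw [hz]
    rfl
  | succ n ih =>
    intro ha
    obtain ⟨q, h1, h2⟩ := ih (by omega)
    refine ⟨q.concat (rep_adj hk ha), by rw [Walk.length_concat, h1], fun z hz => ?_⟩
    rw [Walk.support_concat, List.mem_append, List.mem_singleton] at hz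
    rcases hz with hz | hz
    · exact h2 z hz
    · rw [hz]
      rfl

theorem eq_rep {k : ℕ} (hk : k ≤ N) (z : GV J N T) (h : col J k z.1.2 = z.1.1) :
    z = rep J k z.1.2 hk z.2.2.1 := Subtype.ext (Prod.ext h.symm rfl)

theorem line_walk {k : ℕ} (hk : k ≤ N) (x y : GV J N T) (hx : col J k x.1.2 = x.1.1)
    (hy : col J k y.1.2 = y.1.1) (h : x.1.2 ≤ y.1.2) :
    ∃ q : (GG J N T).Walk x y, q.length = y.1.2 - x.1.2 ∧
      ∀ z ∈ q.support, col J k z.1.2 = z.1.1 := by
  obtain ⟨n, hn⟩ := Nat.exists_eq_add_of_le h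
  have h1 := y.2.2.1
  rw [hn] at h1
  obtain ⟨q, h2, h3⟩ := rep_walk (J := J) (T := T) hk x.1.2 n h1
  have e1 := eq_rep hk x hx
  have e2 : y = rep J k (x.1.2 + n) hk h1 := by
    refine Subtype.ext (Prod.ext ?_ hn)
    show y.1.1 = col J k (x.1.2 + n)
    rw [← hn, hy]
  refine ⟨q.copy e1.symm e2.symm, ?_, ?_⟩
  · rw [Walk.length_copy, h2]
    omega
  · rw [Walk.support_copy]
    exact h3

/-- `z` is left of column `k` or on it -/
theorem side {k : ℕ} {a b : GV J N T} (q : (GG J N T).Walk a b)
    (h : ∀ z ∈ q.support, col J k z.1.2 ≠ z.1.1) (ha : a.1.1 ≤ k) : b.1.1 ≤ k := by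
  induction q with
  | nil => exact ha
  | @cons x y z hxy p ih =>
    have hx := h x (Walk.start_mem_support _)
    refine ih (fun z hz => h z ?_) ?_
    · rw [Walk.support_cons]
      exact List.mem_cons_of_mem _ hz
    · obtain ⟨-, j, hj, h1, h2⟩ := hxy
      have h3 : j < k := by
        by_contra h4
        push Not at h4
        refine hx ?_
        rw [← h1]
        exact col_between (by rw [h1]; exact ha) h4
      have h4 := col_le (J := J) j y.1.2
      omega

/-- the lined world; `0 ∈ J i` for all `i` makes it connected -/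
noncomputable def world (J : ℕ → Set ℕ) (N T : ℕ) (h0 : ∀ i, 0 ∈ J i) : LWorld (GV J N T) where
  G := GG J N T
  u z := (z.1.2 : ℤ)
  N := Set.univ
  idx z := z.1.1
  L p := {z | col J p.1.1 z.1.2 = z.1.1}
  conn := by
    have hb : ∀ k, col J k 0 = 0 := fun k => by
      rw [col_const (Nat.zero_le k) (fun t _ _ => h0 t)]
      rfl
    let b : GV J N T := ⟨(0, 0), Nat.zero_le _, Nat.zero_le _, rfl⟩
    have key : ∀ z : GV J N T, (GG J N T).Reachable b z := fun z => by
      obtain ⟨q, -, -⟩ := line_walk (k := z.1.1) z.2.1 b z (hb _) z.2.2.2 (Nat.zero_le _)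
      exact ⟨q⟩
    rw [SimpleGraph.connected_iff]
    exact ⟨fun x y => (key x).symm.trans (key y), ⟨b⟩⟩
  unit x y h := by
    rcases h.1 with h | h
    · rw [← h]; push_cast; simp
    · rw [← h]; push_cast; simp
  mem_L p _ := p.2.2.2
  L_sub p _ z hz := ⟨trivial, by
    have h1 : col J p.1.1 z.1.2 = z.1.1 := hz
    rw [← h1]
    exact col_le _ _⟩
  L_path p _ a ha b hb hab := by
    have hab' : a.1.2 ≤ b.1.2 := by exact_mod_cast hab
    obtain ⟨q, h1, h2⟩ := line_walk p.2.1 a b ha hb hab'
    exact ⟨q, by rw [h1]; omega, h2⟩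
  L_level p _ x _ := ⟨rep J p.1.1 x.1.2 p.2.1 x.2.2.1, rfl, rfl⟩
  sep p _ a _ b _ h1 h2 q := by
    by_contra hcon
    push Not at hcon
    have h3 := side q hcon h1
    have h4 : b.1.1 = p.1.1 := le_antisymm h3 h2
    refine hcon b (Walk.end_mem_support q) ?_
    show col J p.1.1 b.1.2 = b.1.1
    rw [← h4]
    exact b.2.2.2
  hop a b q hq hin := by
    have hsub : ∀ z ∈ q.support, z = a ∨ z = b := by
      intro z hz
      by_contra hcon
      push Not at hcon
      exact hin z hz hcon.1 hcon.2 trivial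
    have hlen : q.length ≤ 1 := by
      classical
      have h1 : q.support.toFinset ⊆ {a, b} := by
        intro z hz
        rw [List.mem_toFinset] at hz
        rcases hsub z hz with h | h <;> simp [h]
      have h2 := Finset.card_le_card h1
      rw [List.toFinset_card_of_nodup hq.support_nodup, Walk.length_support] at h2
      have h3 := Finset.card_le_two (a := a) (b := b)
      omega
    refine ⟨a, Walk.start_mem_support _, ?_⟩
    rcases Nat.lt_or_ge q.length 1 with h | h
    · have h0 : q.length = 0 := by omega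
      have := Walk.eq_of_length_eq_zero h0
      subst this
      simp [h0]
    · have h1 : q.length = 1 := by omega
      have h2 : (GG J N T).Adj a b := Walk.adj_of_length_eq_one h1
      rw [h1]
      rcases h2.1 with h | h
      · rw [← h]; push_cast; simp
      · rw [← h]; push_cast; simp

end Vale.Agent.P235.STO.H548
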