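import Vale.Agent.P235.ST.H183.PartB
import Vale.Agent.P235.ST.H243.Bumps
import Vale.Agent.P235.ST.H571.Stretches
import Vale.Agent.P235.ST.H673.PieceW
import Vale.Agent.P235.ST.H548.Top

/-! P235, (ST) O(1) (helper548): independent assembly. -/

set_option autoImplicit false

namespace Vale.Agent.P235.STO.H548

open SimpleGraph Vale.Agent.P235

theorem pb : PB := fun V _ W =>
  H183.partB W (fun h => H243.bumps W h)
    (fun hρ hw h1 h2 => H673.inv_step W (H571.stretch' W) hρ hw h1 h2)

theorem planar : ∃ C : ℝ, 1 ≤ C ∧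
    (∀ (V : Type) [Finite V] (G : SimpleGraph V), G.Connected →
      (∃ σ : Equiv.Perm G.Dart, PlaneMap G σ) → DistortionLE G C) ∧
    ∀ (n g t : ℕ) (V : Type) [Finite V] (G : SimpleGraph V), G.Connected → NearSurf n g t V G →
      DistortionLE G (C * (1 + Real.log (g + 2) + Real.log (t + 2))) :=
  near_of_core (pow_nonneg two_pos.le _) (core1 pb)

end Vale.Agent.P235.STO.H548
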